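import Mathlib
import Vale.Agent.Lib.P174.Defs
import Vale.Agent.Lib.P174.Basic

/-!
# P174: Howie's conjecture is equivalent to its Kervaire-type weak form

Howie's conjecture (every nonsingular finite system over every group is solvable) holds for all
groups of a universe if and only if no nontrivial group of that universe is contained in the
normal closure of a nonsingular system over it, and if and only if this holds for simple groups.
-/

namespace Vale.Agent.Results.P174.KervaireForm

open Monoid Vale.Agent.Lib.P174

universe u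

theorem result :
    ((∀ (G : Type u) [Group G] (m n : ℕ) (w : Fin m → Coprod G (FreeGroup (Fin n))),
        Nonsingular w → Solvable w) ↔
      (∀ (G : Type u) [Group G], Nontrivial G →
        ∀ (m n : ℕ) (w : Fin m → Coprod G (FreeGroup (Fin n))), Nonsingular w →
          ∃ g : G, Coprod.inl g ∉ Subgroup.normalClosure (Set.range w))) ∧
    ((∀ (G : Type u) [Group G] (m n : ℕ) (w : Fin m → Coprod G (FreeGroup (Fin n))),
        Nonsingular w → Solvable w) ↔
      (∀ (G : Type u) [Group G], IsSimpleGroup G →
        ∀ (m n : ℕ) (w : Fin m → Coprod G (FreeGroup (Fin n))), Nonsingular w →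
          ∃ g : G, Coprod.inl g ∉ Subgroup.normalClosure (Set.range w))) := by
  have hAB : (∀ (G : Type u) [Group G] (m n : ℕ) (w : Fin m → Coprod G (FreeGroup (Fin n))),
        Nonsingular w → Solvable w) →
      (∀ (G : Type u) [Group G], Nontrivial G →
        ∀ (m n : ℕ) (w : Fin m → Coprod G (FreeGroup (Fin n))), Nonsingular w →
          ∃ g : G, Coprod.inl g ∉ Subgroup.normalClosure (Set.range w)) := by
    intro hA G _ hG m n w hw
    obtain ⟨g, hg⟩ := exists_ne (1 : G)
    exact ⟨g, fun hmem => hg ((solvable_iff w).mp (hA G m n w hw) g hmem)⟩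
  have hBC : (∀ (G : Type u) [Group G], Nontrivial G →
        ∀ (m n : ℕ) (w : Fin m → Coprod G (FreeGroup (Fin n))), Nonsingular w →
          ∃ g : G, Coprod.inl g ∉ Subgroup.normalClosure (Set.range w)) →
      (∀ (G : Type u) [Group G], IsSimpleGroup G →
        ∀ (m n : ℕ) (w : Fin m → Coprod G (FreeGroup (Fin n))), Nonsingular w →
          ∃ g : G, Coprod.inl g ∉ Subgroup.normalClosure (Set.range w)) :=
    fun hB G _ hG m n w hw => hB G hG.toNontrivial m n w hw
  have hCA : (∀ (G : Type u) [Group G], IsSimpleGroup G →
        ∀ (m n : ℕ) (w : Fin m → Coprod G (FreeGroup (Fin n))), Nonsingular w →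
          ∃ g : G, Coprod.inl g ∉ Subgroup.normalClosure (Set.range w)) →
      (∀ (G : Type u) [Group G] (m n : ℕ) (w : Fin m → Coprod G (FreeGroup (Fin n))),
        Nonsingular w → Solvable w) := by
    intro hC G _ m n w hw
    by_contra hns
    obtain ⟨S, _, φ, hφ, hS⟩ := exists_simple_embedding G
    have htop := killed_eq_top_of_simple φ hφ w hns
    obtain ⟨s, hs⟩ := hC S hS m n (mapSys φ w) ((nonsingular_mapSys φ w).mpr hw)
    apply hs
    rw [← mem_killed, htop]
    exact Subgroup.mem_top s
  exact ⟨⟨hAB, fun hB => hCA (hBC hB)⟩, ⟨fun hA => hBC (hAB hA), hCA⟩⟩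

end Vale.Agent.Results.P174.KervaireForm
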